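import Vale.Agent.P281.H702.TS.Base
import Vale.Agent.P281.MF.Hol
import Vale.Agent.P272.K.C2.Wirt

/-!
# P281, project T-S (helper702): the closed 2-forms of a holomorphic form and of a Kähler metric
-/

open Set Filter Metric MeasureTheory Vale.Agent.P272.K
open scoped Topology ContDiff ComplexConjugate ComplexOrder

noncomputable section

namespace Vale.Agent.P281.H702.TS

open Vale.Agent.P281.H64.TK Vale.Agent.P281.H64.TK.TS

section
variable {d : ℕ} {E Γ : Type} [TopologicalSpace E] [Group Γ] [MulAction Γ E]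
variable (S : Sheets d E Γ)

/-- A smooth transition map is, near the point, the transition map `tr`. -/
theorem Tr_eq {i j : Fin S.N} {z z' : Cm d} (hz : z ∈ ball (0 : Cm d) 3)
    (hz' : z' ∈ ball (0 : Cm d) 3) {ψ : Cm d → Cm d} (h : Tr S S id i j z z' ψ) :
    S.σ i z = S.σ j z' ∧ tr S i j z = z' ∧ AnalyticAt ℂ (tr S i j) z ∧
      (∀ᶠ u in 𝓝 z, S.σ i u = S.σ j (tr S i j u)) ∧ ψ =ᶠ[𝓝 z] tr S i j := by
  obtain ⟨h1, h2, h3⟩ := h
  have h0 : S.σ i z = S.σ j z' := by
    have := h3.self_of_nhds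
    simpa [h2] using this
  have h4 := tr_spec S hz hz' h0
  refine ⟨h0, tr_eq S hz' h0, h4.1, h4.2.mono fun u hu => hu.2, ?_⟩
  have h5 : ∀ᶠ u in 𝓝 z, ψ u ∈ ball (0 : Cm d) 3 := by
    refine h1.continuousAt.eventually (isOpen_ball.mem_nhds ?_)
    rw [h2]
    exact hz'
  filter_upwards [h3, h5] with u hu hu'
  exact (tr_eq S hu' hu).symm

theorem Tr_fderiv {i j : Fin S.N} {z z' : Cm d} (hz : z ∈ ball (0 : Cm d) 3)
    (hz' : z' ∈ ball (0 : Cm d) 3) {ψ : Cm d → Cm d} (h : Tr S S id i j z z' ψ) (u : Cm d)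
    (l : Fin d) : fderiv ℝ ψ z u l = ∑ k, jac (tr S i j) z l k * u k := by
  obtain ⟨-, -, h1, -, h2⟩ := Tr_eq S hz hz' h
  have h3 : fderiv ℝ ψ z = (fderiv ℂ (tr S i j) z).restrictScalars ℝ := by
    rw [h2.fderiv_eq]
    exact (h1.differentiableAt.hasFDerivAt.restrictScalars ℝ).fderiv
  rw [h3]
  show fderiv ℂ (tr S i j) z u l = _
  conv_lhs => rw [pi_eq_sum_univ' u]
  rw [map_sum, Finset.sum_apply]
  refine Finset.sum_congr rfl fun k _ => ?_
  rw [map_smul, Pi.smul_apply, smul_eq_mul, mul_comm]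
  simp only [jac, Matrix.of_apply]

end

theorem sf2_apply (s : ℂ) (u v : Cm 2) : sf2 s u v = s * (u 0 * v 1 - u 1 * v 0) := rfl

theorem kf2_apply (w : Matrix (Fin 2) (Fin 2) ℂ) (u v : Cm 2) : kf2 w u v =
    Complex.I / 2 * ∑ j, ∑ k, w j k * (u j * conj (v k) - v j * conj (u k)) := rfl

/-- smoothness of 2-forms can be tested on vectors -/
theorem sm2 {d : ℕ} {U : Set (Cm d)} {α : Cm d → L2 d}
    (h : ∀ u v, ContDiffOn ℝ ∞ (fun z => α z u v) U) : ContDiffOn ℝ ∞ α U := by
  rw [contDiffOn_clm_apply]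
  intro u
  rw [contDiffOn_clm_apply]
  intro v
  exact h u v

theorem fd2 {d : ℕ} {α : Cm d → L2 d} {z : Cm d} (h : DifferentiableAt ℝ α z) (w u v : Cm d) :
    fderiv ℝ α z w u v = fderiv ℝ (fun z => α z u v) z w := by
  have h1 := ((h.hasFDerivAt.clm_apply (hasFDerivAt_const u z)).clm_apply
    (hasFDerivAt_const v z)).fderiv
  rw [h1]
  simp

/-- The Wirtinger derivatives. -/
theorem fd_dz {d : ℕ} (f : Cm d → ℂ) (z u : Cm d) :
    fderiv ℝ f z u = ∑ k, (dz k f z * u k + dzb k f z * conj (u k)) := by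
  have h1 : u = ∑ k, ((u k).re • (Pi.single k (1 : ℂ) : Cm d) +
      (u k).im • (Pi.single k Complex.I : Cm d)) := by
    ext m
    simp only [Finset.sum_apply, Pi.add_apply, Pi.smul_apply, Pi.single_apply]
    simp only [Complex.real_smul, mul_ite, mul_one, mul_zero]
    rw [Finset.sum_add_distrib, Finset.sum_ite_eq, Finset.sum_ite_eq]
    simp only [Finset.mem_univ, if_true]
    exact (Complex.re_add_im (u m)).symm
  conv_lhs => rw [h1]
  rw [map_sum]
  refine Finset.sum_congr rfl fun k _ => ?_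
  rw [map_add, map_smul, map_smul, Complex.real_smul, Complex.real_smul]
  unfold dz dzb
  have h2 : conj (u k) = (u k).re - (u k).im * Complex.I := by
    conv_lhs => rw [← Complex.re_add_im (u k)]
    simp only [map_add, map_mul, Complex.conj_ofReal, Complex.conj_I]
    ring
  rw [h2]
  nth_rw 3 [← Complex.re_add_im (u k)]
  have h3 := Complex.I_sq
  ring_nf
  rw [h3]
  ring

section
variable {E Γ : Type} [TopologicalSpace E] [Group Γ] [MulAction Γ E] {S : Sheets 2 E Γ}

theorem hol_smooth {d : ℕ} {f : Cm d → ℂ} (hf : DifferentiableOn ℂ f (ball 0 3)) :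
    ContDiffOn ℝ ∞ f (ball 0 3) := fun _ hz =>
  (((MF.analyticAt_of_differentiableOn isOpen_ball hf hz).contDiffAt
    (n := ∞)).restrict_scalars ℝ).contDiffWithinAt

/-- A holomorphic form of top degree on a surface is a closed 2-form. -/
theorem hol_cl2 {s : Fin S.N → Cm 2 → ℂ} (hs : HolD S s) :
    Cl2 S (fun i z => sf2 (s i z)) := by
  have hsm : ∀ i, ContDiffOn ℝ ∞ (fun z => sf2 (s i z)) (ball (0 : Cm 2) 3) := by
    intro i
    refine sm2 fun u v => ?_
    simp only [sf2_apply]
    exact (hol_smooth (hs.hol i)).mul contDiffOn_const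
  refine ⟨⟨?_, ?_, ?_⟩, ?_⟩
  · intro i z hz _
    exact (hsm i).contDiffAt (isOpen_ball.mem_nhds hz)
  · intro i z hz _ u v
    simp only [sf2_apply]
    ring
  · intro i j z hz z' hz' _ ψ hψ u v
    obtain ⟨h0, h1, h2, h3, -⟩ := Tr_eq S hz hz' hψ
    have h4 := hs.change i j z hz z' hz' _ h2 h1 h3
    simp only [sf2_apply]
    rw [Tr_fderiv S hz hz' hψ, Tr_fderiv S hz hz' hψ, Tr_fderiv S hz hz' hψ,
      Tr_fderiv S hz hz' hψ, h4, Matrix.det_fin_two]
    simp only [Fin.sum_univ_two]
    ring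
  · intro i z hz u v w
    have hd : DifferentiableAt ℝ (fun z => sf2 (s i z)) z :=
      ((hsm i).contDiffAt (isOpen_ball.mem_nhds hz)).differentiableAt (by simp)
    have hd' : DifferentiableAt ℂ (s i) z :=
      (hs.hol i).differentiableAt (isOpen_ball.mem_nhds hz)
    have h1 : ∀ a b c : Cm 2, fderiv ℝ (fun z => sf2 (s i z)) z a b c =
        fderiv ℂ (s i) z a * (b 0 * c 1 - b 1 * c 0) := by
      intro a b c
      rw [fd2 hd]
      simp only [sf2_apply]
      have h2 : HasFDerivAt (s i) ((fderiv ℂ (s i) z).restrictScalars ℝ) z :=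
        hd'.hasFDerivAt.restrictScalars ℝ
      rw [(h2.mul_const _).fderiv]
      simp [mul_comm]
    have h5 : ∀ a : Cm 2, fderiv ℂ (s i) z a =
        a 0 * fderiv ℂ (s i) z (Pi.single 0 1) + a 1 * fderiv ℂ (s i) z (Pi.single 1 1) := by
      intro a
      have h6 : a = a 0 • (Pi.single 0 (1 : ℂ) : Cm 2) + a 1 • (Pi.single 1 (1 : ℂ) : Cm 2) := by
        ext m
        fin_cases m <;> simp
      conv_lhs => rw [h6]
      rw [map_add, map_smul, map_smul, smul_eq_mul, smul_eq_mul]
    rw [h1, h1, h1, h5 u, h5 v, h5 w]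
    ring

variable {w : Fin S.N → Cm 2 → Matrix (Fin 2) (Fin 2) ℂ}

/-- The fundamental form of a Kähler metric on a surface is a closed 2-form. -/
theorem kah_cl2 (hw : Kah S w) : Cl2 S (fun i z => kf2 (w i z)) := by
  have hherm : ∀ i, ∀ z ∈ ball (0 : Cm 2) 3, ∀ j k, w i z j k = conj (w i z k j) := by
    intro i z hz j k
    exact ((hw.posDef i z hz).isHermitian.apply j k).symm
  have hsm : ∀ i, ContDiffOn ℝ ∞ (fun z => kf2 (w i z)) (ball (0 : Cm 2) 3) := by
    intro i
    refine sm2 fun u v => ?_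
    simp only [kf2_apply]
    refine contDiffOn_const.mul ?_
    refine ContDiffOn.sum fun j _ => ContDiffOn.sum fun k _ => ?_
    exact (hw.smooth i j k).mul contDiffOn_const
  refine ⟨⟨?_, ?_, ?_⟩, ?_⟩
  · intro i z hz _
    exact (hsm i).contDiffAt (isOpen_ball.mem_nhds hz)
  · intro i z hz _ u v
    simp only [kf2_apply, Fin.sum_univ_two]
    ring
  · intro i j z hz z' hz' _ ψ hψ u v
    obtain ⟨h0, h1, h2, h3, -⟩ := Tr_eq S hz hz' hψ
    have h4 := hw.change i j z hz z' hz' 1 _ h2 h1 (by simpa only [one_smul] using h3)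
    simp only [kf2_apply]
    have h5 : ∀ a b, w i z a b = ∑ p, ∑ q, jac (tr S i j) z p a * w j z' p q *
        conj (jac (tr S i j) z q b) := by
      intro a b
      rw [h4]
      simp only [Matrix.mul_apply, Matrix.transpose_apply, Matrix.map_apply, Fin.sum_univ_two]
      ring
    simp only [h5, Tr_fderiv S hz hz' hψ, Fin.sum_univ_two, map_add, map_mul]
    ring
  · intro i z hz u v x
    have hd : DifferentiableAt ℝ (fun z => kf2 (w i z)) z :=
      ((hsm i).contDiffAt (isOpen_ball.mem_nhds hz)).differentiableAt (by simp)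
    have hdw : ∀ j k, DifferentiableAt ℝ (fun z => w i z j k) z := fun j k =>
      ((hw.smooth i j k).contDiffAt (isOpen_ball.mem_nhds hz)).differentiableAt (by simp)
    have h1 : ∀ a b c : Cm 2, fderiv ℝ (fun z => kf2 (w i z)) z a b c =
        Complex.I / 2 * ∑ j, ∑ k, fderiv ℝ (fun z => w i z j k) z a *
          (b j * conj (c k) - c j * conj (b k)) := by
      intro a b c
      rw [fd2 hd]
      simp only [kf2_apply]
      have h2 : HasFDerivAt (fun z => Complex.I / 2 * ∑ j, ∑ k, w i z j k *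
          (b j * conj (c k) - c j * conj (b k))) _ z :=
        HasFDerivAt.const_mul (HasFDerivAt.fun_sum fun j _ => HasFDerivAt.fun_sum fun k _ =>
          ((hdw j k).hasFDerivAt.mul_const (b j * conj (c k) - c j * conj (b k))))
          (Complex.I / 2)
      rw [h2.fderiv]
      simp only [smul_apply, sum_apply, smul_eq_mul]
      congr 1
      refine Finset.sum_congr rfl fun j _ => Finset.sum_congr rfl fun k _ => ?_
      ring
    have hcl : ∀ j k l, dz l (fun z => w i z j k) z = dz j (fun z => w i z l k) z :=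
      hw.closed i z hz
    have hclb : ∀ j k l, dzb l (fun z => w i z j k) z = dzb k (fun z => w i z j l) z := by
      intro j k l
      have h3 : ∀ p q r, dzb r (fun z => w i z p q) z = conj (dz r (fun z => w i z q p) z) := by
        intro p q r
        rw [← C2.dzb_conj r (hdw q p)]
        refine C2.dzb_congr r ?_
        filter_upwards [isOpen_ball.mem_nhds hz] with y hy
        exact hherm i y hy p q
      rw [h3, h3, hcl]
    simp only [h1, fd_dz, Fin.sum_univ_two]
    rw [hcl 0 0 1, hcl 0 1 1, hclb 0 0 1, hclb 1 0 1]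
    ring

theorem kah_real2 (hw : Kah S w) : Real2 S (fun i z => kf2 (w i z)) := by
  intro i z hz u v
  have h : conj (kf2 (w i z) u v) = kf2 (w i z) u v := by
    have hherm : ∀ j k, conj (w i z k j) = w i z j k := fun j k =>
      (hw.posDef i z hz).isHermitian.apply j k
    simp only [kf2_apply, Fin.sum_univ_two, map_mul, map_add, map_sub, map_div₀, Complex.conj_I,
      Complex.conj_conj, hherm, map_ofNat]
    ring
  exact Complex.conj_eq_iff_im.1 h

end

end Vale.Agent.P281.H702.TS
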