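import Vale.Agent.P281.H702.TS.Base

/-!
# P281, project T-S, block A2 (helper702): smooth partition of unity
-/

open Set Filter Metric MeasureTheory Vale.Agent.P272.K
open scoped Topology ContDiff ComplexConjugate ComplexOrder

noncomputable section

namespace Vale.Agent.P281.H702.TS

open Vale.Agent.P281.H64.TK Vale.Agent.P281.H64.TK.TS

variable {d : ℕ} {E Γ : Type} [TopologicalSpace E] [Group Γ] [MulAction Γ E]

/-- the square of the Euclidean distance -/
def sq (c z : Cm d) : ℝ := ∑ k, ‖z k - c k‖ ^ 2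

theorem sq_contDiff (c : Cm d) : ContDiff ℝ ∞ (sq c) := by
  unfold sq
  refine ContDiff.sum fun k _ => ?_
  refine ContDiff.norm_sq ℝ ?_
  exact (contDiff_apply ℝ ℂ k).sub contDiff_const

theorem sq_cont (c : Cm d) : Continuous (sq c) := (sq_contDiff c).continuous

theorem mem_eb {c z : Cm d} {r : ℝ} : z ∈ eb c r ↔ sq c z < r ^ 2 := Iff.rfl

theorem isOpen_eb (c : Cm d) (r : ℝ) : IsOpen (eb c r) :=
  isOpen_lt (sq_cont c) continuous_const

theorem sq_nonneg' (c z : Cm d) : 0 ≤ sq c z := Finset.sum_nonneg fun _ _ => by positivity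

theorem eb_mono {c : Cm d} {r s : ℝ} (h0 : 0 ≤ r) (h : r ≤ s) : eb c r ⊆ eb c s := by
  intro z hz
  rw [mem_eb] at hz ⊢
  exact hz.trans_le (by gcongr)

/-- the cut-off function -/
def chi (c : Cm d) (r : ℝ) (z : Cm d) : ℝ := Real.smoothTransition (1 / 2 - sq c z / r ^ 2)

theorem chi_smooth (c : Cm d) (r : ℝ) : ContDiff ℝ ∞ (chi c r) := by
  unfold chi
  exact Real.smoothTransition.contDiff.comp (contDiff_const.sub ((sq_contDiff c).div_const _))

theorem chi_nonneg (c : Cm d) (r : ℝ) (z : Cm d) : 0 ≤ chi c r z :=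
  Real.smoothTransition.nonneg _

theorem chi_pos {c : Cm d} {r : ℝ} (hr : 0 < r) {z : Cm d} (hz : z ∈ eb c (r / 2)) :
    0 < chi c r z := by
  refine Real.smoothTransition.pos_of_pos ?_
  rw [mem_eb] at hz
  have h1 : sq c z / r ^ 2 < 1 / 4 := by
    rw [div_lt_iff₀ (by positivity)]
    nlinarith
  linarith

theorem chi_zero {c : Cm d} {r : ℝ} (hr : 0 < r) {z : Cm d} (hz : r ^ 2 / 2 ≤ sq c z) :
    chi c r z = 0 := by
  refine Real.smoothTransition.zero_of_nonpos ?_
  have h1 : 1 / 2 ≤ sq c z / r ^ 2 := by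
    rw [le_div_iff₀ (by positivity)]
    linarith
  linarith

section
variable {S : Sheets d E Γ} {A : Type} (G : Good S A)

theorem eb_sub (a : A) : eb (G.c a) (G.r a) ⊆ ball (0 : Cm d) 2 :=
  (eb_mono (G.pos a).le (by linarith [G.pos a])).trans (G.sub a)

theorem eb_sub3 (a : A) : eb (G.c a) (G.r a) ⊆ ball (0 : Cm d) 3 :=
  (eb_sub G a).trans (ball_subset_ball (by norm_num))

open Classical in
/-- the cut-off function of the member `a` of the covering -/
def bmp (a : A) (e : E) : ℝ :=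
  if iv S (G.i a) e ∈ ball (0 : Cm d) 3 ∧ S.σ (G.i a) (iv S (G.i a) e) = e then
    chi (G.c a) (G.r a) (iv S (G.i a) e) else 0

theorem bmp_eq (a : A) {z : Cm d} (hz : z ∈ ball (0 : Cm d) 3) :
    bmp G a (S.σ (G.i a) z) = chi (G.c a) (G.r a) z := by
  unfold bmp
  rw [iv_eq S hz, if_pos ⟨hz, rfl⟩]

theorem bmp_nonneg (a : A) (e : E) : 0 ≤ bmp G a e := by
  unfold bmp
  split_ifs
  · exact chi_nonneg _ _ _
  · exact le_rfl

variable [Subsingleton Γ]

/-- near a point outside the sheet, the points are outside the closed ball of radius `2` -/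
theorem ev_off {i : Fin S.N} {e : E} (he : ∀ z ∈ ball (0 : Cm d) 3, S.σ i z ≠ e) :
    ∀ᶠ e' in 𝓝 e, ∀ z : Cm d, ‖z‖ ≤ 2 → S.σ i z ≠ e' := by
  have h1 := (S.closed i 2 (by norm_num)).isOpen_compl.mem_nhds (x := e) (by
    rintro ⟨γ, z, hz, h⟩
    rw [Subsingleton.elim γ 1, one_smul] at h
    exact he z (by rw [mem_ball_zero_iff]; linarith) h)
  filter_upwards [h1] with e' he' z hz h
  exact he' ⟨1, z, hz, by rw [one_smul, h]⟩

omit [Subsingleton Γ] in
theorem bmp_off {a : A} {e : E} (he : ∀ z : Cm d, ‖z‖ ≤ 2 → S.σ (G.i a) z ≠ e) :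
    bmp G a e = 0 := by
  unfold bmp
  split_ifs with h
  · refine chi_zero (G.pos a) ?_
    by_contra hcon
    have h1 : iv S (G.i a) e ∈ eb (G.c a) (G.r a) := by
      rw [mem_eb]
      have := G.pos a
      nlinarith
    have h2 := eb_sub G a h1
    rw [mem_ball_zero_iff] at h2
    exact he _ h2.le h.2
  · rfl

theorem bmp_supp (a : A) {e : E} (he : e ∉ G.U a) : ∀ᶠ e' in 𝓝 e, bmp G a e' = 0 := by
  by_cases h : ∃ z ∈ ball (0 : Cm d) 3, S.σ (G.i a) z = e
  · obtain ⟨z, hz, rfl⟩ := h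
    have h1 : z ∉ eb (G.c a) (G.r a) := fun h => he ⟨z, h, rfl⟩
    rw [mem_eb, not_lt] at h1
    have h2 : ∀ᶠ u in 𝓝 z, G.r a ^ 2 / 2 < sq (G.c a) u := by
      refine (sq_cont (G.c a)).continuousAt.eventually (lt_mem_nhds ?_)
      have := G.pos a
      nlinarith
    rw [← S.map_nhds _ z hz, Filter.eventually_map]
    filter_upwards [h2, isOpen_ball.mem_nhds hz] with u hu hu'
    rw [bmp_eq G a hu']
    exact chi_zero (G.pos a) hu.le
  · push Not at h
    filter_upwards [ev_off h] with e' he'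
    exact bmp_off G he'

theorem bmp_smooth (a : A) (j : Fin S.N) {z : Cm d} (hz : z ∈ ball (0 : Cm d) 3) :
    ContDiffAt ℝ ∞ (fun u => bmp G a (S.σ j u)) z := by
  by_cases h : ∃ w ∈ ball (0 : Cm d) 3, S.σ (G.i a) w = S.σ j z
  · obtain ⟨w, hw, h⟩ := h
    have h1 := tr_contDiffAt S hz hw h.symm
    have h2 : (fun u => bmp G a (S.σ j u)) =ᶠ[𝓝 z]
        fun u => chi (G.c a) (G.r a) (tr S j (G.i a) u) := by
      filter_upwards [(tr_spec S hz hw h.symm).2] with u hu
      rw [hu.2, bmp_eq G a hu.1]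
    refine ContDiffAt.congr_of_eventuallyEq ?_ h2
    exact (chi_smooth _ _).contDiffAt.comp z h1
  · push Not at h
    have h1 : ∀ᶠ u in 𝓝 z, bmp G a (S.σ j u) = 0 := by
      have h2 := ev_off (S := S) (i := G.i a) (e := S.σ j z) (fun w hw => h w hw)
      rw [← S.map_nhds j z hz, Filter.eventually_map] at h2
      filter_upwards [h2] with u hu
      exact bmp_off G hu
    refine ContDiffAt.congr_of_eventuallyEq contDiffAt_const (f := fun _ => (0 : ℝ)) ?_
    exact h1

variable [Fintype A]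

/-- the sum of the cut-off functions -/
def sm (e : E) : ℝ := ∑ a, bmp G a e

omit [Subsingleton Γ] in
theorem sm_pos (e : E) : 0 < sm G e := by
  obtain ⟨a, z, hz, rfl⟩ := G.cover e
  have h1 : z ∈ ball (0 : Cm d) 3 :=
    eb_sub3 G a (eb_mono (by linarith [G.pos a]) (by linarith [G.pos a]) hz)
  refine Finset.sum_pos' (fun b _ => bmp_nonneg G b _) ⟨a, Finset.mem_univ _, ?_⟩
  rw [bmp_eq G a h1]
  exact chi_pos (G.pos a) hz

end

/-- **A2.** -/
theorem part : PartStmt := by
  intro d E Γ _ _ _ _ _ _ S A _ G hd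
  refine ⟨fun a e => bmp G a e / sm G e, ?_, ?_, ?_, ?_⟩
  · intro a i z hz _
    have h1 : ContDiffAt ℝ ∞ (fun u => bmp G a (S.σ i u) / sm G (S.σ i u)) z := by
      refine (bmp_smooth G a i hz).div ?_ (sm_pos G _).ne'
      exact ContDiffAt.sum fun b _ => bmp_smooth G b i hz
    exact (Complex.ofRealCLM.contDiff.contDiffAt (n := ∞)).comp z h1
  · intro a e
    exact div_nonneg (bmp_nonneg G a e) (sm_pos G e).le
  · intro e
    rw [← Finset.sum_div]
    exact div_self (sm_pos G e).ne'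
  · intro a e he
    filter_upwards [bmp_supp G a he] with e' he'
    rw [he', zero_div]

end Vale.Agent.P281.H702.TS
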