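import Vale.Agent.P281.H702.TS.A2

/-!
# P281, project T-S, block A4a (helper702): existence of Čech data
-/

open Set Filter Metric MeasureTheory Vale.Agent.P272.K
open scoped Topology ContDiff ComplexConjugate ComplexOrder

noncomputable section

namespace Vale.Agent.P281.H702.TS

open Vale.Agent.P281.H64.TK Vale.Agent.P281.H64.TK.TS

variable {d : ℕ} {E Γ : Type} [TopologicalSpace E] [Group Γ] [MulAction Γ E]

section
variable {S : Sheets d E Γ} {A : Type} (G : Good S A)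

theorem convex_eb (a : A) : Convex ℝ (eb (G.c a) (G.r a)) := by
  have h := G.conv a a
  have h2 : {z | z ∈ eb (G.c a) (G.r a) ∧ S.σ (G.i a) z ∈ S.σ (G.i a) '' eb (G.c a) (G.r a)} =
      eb (G.c a) (G.r a) := by
    ext z
    exact ⟨fun h => h.1, fun h => ⟨h, mem_image_of_mem _ h⟩⟩
  rw [h2] at h
  exact h

theorem isOpen_U (a : A) : IsOpen (G.U a) := isOpen_image S _ (isOpen_eb _ _) (eb_sub3 G a)

/-- the trace of the member `b` in the coordinates of the member `a` -/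
def C2 (a b : A) : Set (Cm d) := {z | z ∈ eb (G.c a) (G.r a) ∧ S.σ (G.i a) z ∈ G.U b}

theorem C2_convex (a b : A) : Convex ℝ (C2 G a b) := G.conv a b

theorem C2_open (a b : A) : IsOpen (C2 G a b) := by
  rw [isOpen_iff_mem_nhds]
  rintro z ⟨h1, h2⟩
  have h3 : ∀ᶠ u in 𝓝 z, S.σ (G.i a) u ∈ G.U b := by
    have h4 : Tendsto (S.σ (G.i a)) (𝓝 z) (𝓝 (S.σ (G.i a) z)) :=
      (S.map_nhds _ z (eb_sub3 G a h1)).le
    exact h4.eventually ((isOpen_U G b).mem_nhds h2)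
  filter_upwards [(isOpen_eb (G.c a) (G.r a)).mem_nhds h1, h3] with u hu hu'
  exact ⟨hu, hu'⟩

theorem C2_sub (a b : A) : C2 G a b ⊆ ball (0 : Cm d) 3 := fun _ h => eb_sub3 G a h.1

theorem mem_C2 {a b : A} {z : Cm d} (hz : z ∈ C2 G a b) :
    S.σ (G.i a) z ∈ G.U a ∩ G.U b := ⟨⟨z, hz.1, rfl⟩, hz.2⟩

/-- The functions `g_{ab}` for given 1-forms. -/
theorem exists_g (hP : PoinStmt) {α : Fin S.N → Cm d → L2 d} {β β' : Fin S.N → Cm d → L1 d}
    {a b : A} (hF : F1On S (G.U a) β) (hF' : F1On S (G.U b) β') (hD : IsD1 S (G.U a) β α)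
    (hD' : IsD1 S (G.U b) β' α) :
    ∃ g : E → ℂ, SmOn S (G.U a ∩ G.U b) g ∧
      IsD0 S (G.U a ∩ G.U b) g (fun i z => β i z - β' i z) := by
  obtain ⟨g, hg, hdg⟩ := hP.2 d (C2 G a b) (C2_open G a b) (C2_convex G a b)
    (fun z => β (G.i a) z - β' (G.i a) z) (by
      intro z hz
      have h1 := hF.smooth (G.i a) z (C2_sub G a b hz) (mem_C2 G hz).1
      have h2 := hF'.smooth (G.i a) z (C2_sub G a b hz) (mem_C2 G hz).2
      exact (h1.sub h2).contDiffWithinAt) (by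
      intro z hz u v
      have h1 := hF.smooth (G.i a) z (C2_sub G a b hz) (mem_C2 G hz).1
      have h2 := hF'.smooth (G.i a) z (C2_sub G a b hz) (mem_C2 G hz).2
      have h3 := hD (G.i a) z (C2_sub G a b hz) (mem_C2 G hz).1 u v
      have h4 := hD' (G.i a) z (C2_sub G a b hz) (mem_C2 G hz).2 u v
      rw [fderiv_fun_sub (h1.differentiableAt (by simp)) (h2.differentiableAt (by simp))]
      simp only [sub_apply]
      linear_combination h3 - h4)
  have key : ∀ j, ∀ z ∈ ball (0 : Cm d) 3, S.σ j z ∈ G.U a ∩ G.U b →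
      ∃ w ∈ C2 G a b, S.σ j z = S.σ (G.i a) w := by
    rintro j z hz ⟨⟨w, hw, hwz⟩, h2⟩
    refine ⟨w, ⟨hw, ?_⟩, hwz.symm⟩
    rw [hwz]
    exact h2
  refine ⟨fun e => g (iv S (G.i a) e), ?_, ?_⟩
  · intro j z hz hzU
    obtain ⟨w, hw, hwz⟩ := key j z hz hzU
    have h1 := tr_contDiffAt S hz (C2_sub G a b hw) hwz
    have h2 := tr_eq S (C2_sub G a b hw) hwz
    have h3 : ContDiffAt ℝ ∞ g (tr S j (G.i a) z) := by
      rw [h2]
      exact hg.contDiffAt ((C2_open G a b).mem_nhds hw)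
    exact h3.comp z h1
  · intro j z hz hzU
    obtain ⟨w, hw, hwz⟩ := key j z hz hzU
    have h1 := tr_contDiffAt S hz (C2_sub G a b hw) hwz
    have h2 := tr_eq S (C2_sub G a b hw) hwz
    have h3 : ContDiffAt ℝ ∞ g (tr S j (G.i a) z) := by
      rw [h2]
      exact hg.contDiffAt ((C2_open G a b).mem_nhds hw)
    have h4 : fderiv ℝ (fun u => g (iv S (G.i a) (S.σ j u))) z =
        (fderiv ℝ g (tr S j (G.i a) z)).comp (fderiv ℝ (tr S j (G.i a)) z) :=
      fderiv_comp z (g := g) (f := tr S j (G.i a)) (h3.differentiableAt (by simp))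
        (h1.differentiableAt (by simp))
    show fderiv ℝ (fun u => g (iv S (G.i a) (S.σ j u))) z = _
    rw [h4, h2, hdg w hw]
    ext v
    have h5 := hF.change j (G.i a) z hz w (C2_sub G a b hw) hzU.1 _
      (tr_Tr S hz (C2_sub G a b hw) hwz) v
    have h6 := hF'.change j (G.i a) z hz w (C2_sub G a b hw) hzU.2 _
      (tr_Tr S hz (C2_sub G a b hw) hwz) v
    simp only [ContinuousLinearMap.comp_apply, sub_apply]
    rw [h5, h6]

/-- The cocycle is constant on the triple intersections. -/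
theorem co_const {β : A → Fin S.N → Cm d → L1 d} {g : A → A → E → ℂ}
    (sm : ∀ a b, SmOn S (G.U a ∩ G.U b) (g a b))
    (d0 : ∀ a b, IsD0 S (G.U a ∩ G.U b) (g a b) (fun i z => β a i z - β b i z)) (a b b' : A)
    {e e' : E} (he : e ∈ G.U a ∩ G.U b ∩ G.U b') (he' : e' ∈ G.U a ∩ G.U b ∩ G.U b') :
    g b b' e - g a b' e + g a b e = g b b' e' - g a b' e' + g a b e' := by
  obtain ⟨⟨⟨z, hz, hze⟩, h1⟩, h2⟩ := he
  obtain ⟨⟨⟨z', hz', hze'⟩, h1'⟩, h2'⟩ := he'
  have hm : z ∈ C2 G a b ∩ C2 G a b' := ⟨⟨hz, by rw [hze]; exact h1⟩, ⟨hz, by rw [hze]; exact h2⟩⟩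
  have hm' : z' ∈ C2 G a b ∩ C2 G a b' :=
    ⟨⟨hz', by rw [hze']; exact h1'⟩, ⟨hz', by rw [hze']; exact h2'⟩⟩
  have ho : IsOpen (C2 G a b ∩ C2 G a b') := (C2_open G a b).inter (C2_open G a b')
  have hc : Convex ℝ (C2 G a b ∩ C2 G a b') := (C2_convex G a b).inter (C2_convex G a b')
  have key : ∀ u ∈ C2 G a b ∩ C2 G a b', HasFDerivAt (fun u => g b b' (S.σ (G.i a) u) -
      g a b' (S.σ (G.i a) u) + g a b (S.σ (G.i a) u)) (0 : L1 d) u := by
    rintro u ⟨hu, hu'⟩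
    have h3 := C2_sub G a b hu
    have h4 : S.σ (G.i a) u ∈ G.U b ∩ G.U b' := ⟨hu.2, hu'.2⟩
    have k1 : HasFDerivAt (fun u => g b b' (S.σ (G.i a) u)) _ u :=
      ((sm b b' (G.i a) u h3 h4).differentiableAt (by simp)).hasFDerivAt
    have k2 : HasFDerivAt (fun u => g a b' (S.σ (G.i a) u)) _ u :=
      ((sm a b' (G.i a) u h3 (mem_C2 G hu')).differentiableAt (by simp)).hasFDerivAt
    have k3 : HasFDerivAt (fun u => g a b (S.σ (G.i a) u)) _ u :=
      ((sm a b (G.i a) u h3 (mem_C2 G hu)).differentiableAt (by simp)).hasFDerivAt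
    rw [d0 b b' (G.i a) u h3 h4] at k1
    rw [d0 a b' (G.i a) u h3 (mem_C2 G hu')] at k2
    rw [d0 a b (G.i a) u h3 (mem_C2 G hu)] at k3
    have k4 := (k1.sub k2).add k3
    refine k4.congr_fderiv ?_
    ext v
    simp only [sub_apply, add_apply, zero_apply]
    ring
  have h5 := ho.is_const_of_fderiv_eq_zero (𝕜 := ℝ) hc.isPreconnected
    (fun u hu => (key u hu).differentiableAt.differentiableWithinAt)
    (fun u hu => (key u hu).fderiv) hm hm'
  simpa only [hze, hze'] using h5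

end

/-- **A4a.** -/
theorem coEx (hP : PoinStmt) : CoExStmt := by
  intro d E Γ _ _ _ _ _ _ S A G α hd hα
  have hb : ∀ a, ∃ b : Cm d → L1 d, ContDiffOn ℝ ∞ b (eb (G.c a) (G.r a)) ∧
      ∀ z ∈ eb (G.c a) (G.r a), ∀ u v,
        fderiv ℝ b z u v - fderiv ℝ b z v u = α (G.i a) z u v := by
    intro a
    refine hP.1 d _ (isOpen_eb _ _) (convex_eb G a) (α (G.i a)) ?_ ?_ ?_
    · intro z hz
      exact (hα.smooth (G.i a) z (eb_sub3 G a hz) (mem_univ _)).contDiffWithinAt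
    · intro z hz
      exact hα.alt (G.i a) z (eb_sub3 G a hz) (mem_univ _)
    · intro z hz
      exact hα.closed (G.i a) z (eb_sub3 G a hz)
  choose b hb1 hb2 using hb
  have hb3 : ∀ a, ∀ w ∈ eb (G.c a) (G.r a), ContDiffAt ℝ ∞ (b a) w := fun a w hw =>
    (hb1 a).contDiffAt ((isOpen_eb _ _).mem_nhds hw)
  have hF : ∀ a, F1On S (G.U a) (pb S (G.i a) (b a)) := fun a =>
    pb_F1 S (eb_sub3 G a) (hb3 a)
  have hD : ∀ a, IsD1 S (G.U a) (pb S (G.i a) (b a)) α := fun a =>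
    pb_D1 S (eb_sub3 G a) (hb3 a) hα.toF2On (hb2 a)
  choose g hg1 hg2 using fun a b' => exists_g G hP (hF a) (hF b') (hD a) (hD b')
  classical
  refine ⟨fun a => pb S (G.i a) (b a), g, fun a b b' =>
    if h : (G.U a ∩ G.U b ∩ G.U b').Nonempty then
      g b b' h.some - g a b' h.some + g a b h.some else 0, ?_⟩
  refine ⟨hF, hD, hg1, hg2, ?_, ?_⟩
  · intro a b₁ b₂ e he
    have h : (G.U a ∩ G.U b₁ ∩ G.U b₂).Nonempty := ⟨e, he⟩
    simp only [dif_pos h]
    exact co_const G hg1 hg2 a b₁ b₂ he h.some_mem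
  · intro a b₁ b₂ h
    rw [dif_neg (by rw [h]; exact Set.not_nonempty_empty)]

end Vale.Agent.P281.H702.TS
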