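import Vale.Agent.P281.H64.TS.Spec

/-!
# P281, project T-S (helper702): transition maps between the sheets, pull-back of 1-forms
-/

open Set Filter Metric MeasureTheory Vale.Agent.P272.K
open scoped Topology ContDiff ComplexConjugate ComplexOrder

noncomputable section

namespace Vale.Agent.P281.H702.TS

open Vale.Agent.P281.H64.TK Vale.Agent.P281.H64.TK.TS

variable {d : ℕ} {E Γ : Type} [TopologicalSpace E] [Group Γ] [MulAction Γ E]

section
variable (S : Sheets d E Γ)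

theorem injOn (i : Fin S.N) : InjOn (S.σ i) (ball 0 3) := fun z hz w hw h =>
  (S.inj i z hz w hw 1 (by rw [one_smul, h])).2

theorem isOpen_image (i : Fin S.N) {U : Set (Cm d)} (hU : IsOpen U) (hs : U ⊆ ball 0 3) :
    IsOpen (S.σ i '' U) := by
  rw [isOpen_iff_mem_nhds]
  rintro _ ⟨z, hz, rfl⟩
  rw [← S.map_nhds i z (hs hz)]
  exact image_mem_map (hU.mem_nhds hz)

/-- The inverse of the sheet `i`. -/
def iv (i : Fin S.N) (e : E) : Cm d := Function.invFunOn (S.σ i) (ball 0 3) e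

theorem iv_eq {i : Fin S.N} {z : Cm d} (hz : z ∈ ball (0 : Cm d) 3) : iv S i (S.σ i z) = z :=
  (injOn S i).leftInvOn_invFunOn hz

/-- The transition map from the sheet `j` to the sheet `i`. -/
def tr (j i : Fin S.N) (z : Cm d) : Cm d := iv S i (S.σ j z)

theorem tr_eq {j i : Fin S.N} {z w : Cm d} (hw : w ∈ ball (0 : Cm d) 3)
    (h : S.σ j z = S.σ i w) : tr S j i z = w := by
  unfold tr
  rw [h, iv_eq S hw]

theorem tr_spec {j i : Fin S.N} {z w : Cm d} (hz : z ∈ ball (0 : Cm d) 3)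
    (hw : w ∈ ball (0 : Cm d) 3) (h : S.σ j z = S.σ i w) :
    AnalyticAt ℂ (tr S j i) z ∧
      ∀ᶠ u in 𝓝 z, tr S j i u ∈ ball (0 : Cm d) 3 ∧ S.σ j u = S.σ i (tr S j i u) := by
  obtain ⟨θ, h1, h2, h3⟩ := S.hol j i z hz w hw 1 (by rw [one_smul, h])
  have h4 : ∀ᶠ u in 𝓝 z, θ u ∈ ball (0 : Cm d) 3 := by
    have := h1.continuousAt
    refine this.eventually (isOpen_ball.mem_nhds ?_)
    rw [h2]
    exact hw
  have h5 : ∀ᶠ u in 𝓝 z, θ u = tr S j i u := by
    filter_upwards [h3, h4] with u hu hu'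
    rw [one_smul] at hu
    exact (tr_eq S hu' hu).symm
  refine ⟨h1.congr h5, ?_⟩
  filter_upwards [h3, h4, h5] with u hu hu' hu''
  rw [one_smul] at hu
  rw [← hu'']
  exact ⟨hu', hu⟩

theorem tr_contDiffAt {j i : Fin S.N} {z w : Cm d} (hz : z ∈ ball (0 : Cm d) 3)
    (hw : w ∈ ball (0 : Cm d) 3) (h : S.σ j z = S.σ i w) : ContDiffAt ℝ ∞ (tr S j i) z :=
  ((tr_spec S hz hw h).1.contDiffAt (n := ∞)).restrict_scalars ℝ

/-- The transition maps are transition maps in the sense of `Tr`. -/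
theorem tr_Tr {j i : Fin S.N} {z w : Cm d} (hz : z ∈ ball (0 : Cm d) 3)
    (hw : w ∈ ball (0 : Cm d) 3) (h : S.σ j z = S.σ i w) : Tr S S id j i z w (tr S j i) := by
  refine ⟨tr_contDiffAt S hz hw h, tr_eq S hw h, ?_⟩
  filter_upwards [(tr_spec S hz hw h).2] with u hu
  exact hu.2

end

/-- The exterior derivative commutes with the pull-back. -/
theorem d_pull {b : Cm d → L1 d} {ψ : Cm d → Cm d} {z : Cm d}
    (hb : DifferentiableAt ℝ b (ψ z)) (hψ : ContDiffAt ℝ ∞ ψ z) (u v : Cm d) :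
    fderiv ℝ (fun x => (b (ψ x)).comp (fderiv ℝ ψ x)) z u v -
      fderiv ℝ (fun x => (b (ψ x)).comp (fderiv ℝ ψ x)) z v u =
    fderiv ℝ b (ψ z) (fderiv ℝ ψ z u) (fderiv ℝ ψ z v) -
      fderiv ℝ b (ψ z) (fderiv ℝ ψ z v) (fderiv ℝ ψ z u) := by
  have h1 : HasFDerivAt ψ (fderiv ℝ ψ z) z :=
    (hψ.differentiableAt (by simp)).hasFDerivAt
  have h2 : HasFDerivAt (fun x => b (ψ x)) ((fderiv ℝ b (ψ z)).comp (fderiv ℝ ψ z)) z :=
    hb.hasFDerivAt.comp z h1
  have h3 : ContDiffAt ℝ ∞ (fderiv ℝ ψ) z := hψ.fderiv_right (by simp)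
  have h4 : HasFDerivAt (fderiv ℝ ψ) (fderiv ℝ (fderiv ℝ ψ) z) z :=
    (h3.differentiableAt (by simp)).hasFDerivAt
  have h5 := (h2.clm_comp h4).fderiv
  have h6 : IsSymmSndFDerivAt ℝ ψ z := hψ.isSymmSndFDerivAt (by
    simp only [minSmoothness_of_isRCLikeNormedField]
    exact WithTop.coe_le_coe.2 (le_top : (2 : ℕ∞) ≤ ⊤))
  rw [h5]
  simp only [add_apply, ContinuousLinearMap.comp_apply,
    ContinuousLinearMap.compL_apply, ContinuousLinearMap.flip_apply]
  rw [h6.eq u v]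
  ring

section
variable (S : Sheets d E Γ)

/-- The 1-form whose value in the sheet `i` is `b`, in the other sheets. -/
def pb (i : Fin S.N) (b : Cm d → L1 d) (j : Fin S.N) (z : Cm d) : L1 d :=
  (b (tr S j i z)).comp (fderiv ℝ (tr S j i) z)

theorem pb_F1 {i : Fin S.N} {b : Cm d → L1 d} {C : Set (Cm d)} (hC : C ⊆ ball 0 3)
    (hb : ∀ w ∈ C, ContDiffAt ℝ ∞ b w) : F1On S (S.σ i '' C) (pb S i b) where
  smooth := by
    rintro j z hz ⟨w, hw, hwz⟩
    have h1 := tr_contDiffAt S hz (hC hw) hwz.symm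
    have h2 := tr_eq S (hC hw) hwz.symm
    have h3 : ContDiffAt ℝ ∞ (fun x => b (tr S j i x)) z :=
      ContDiffAt.comp z (by rw [h2]; exact hb w hw) h1
    exact h3.clm_comp (h1.fderiv_right (by simp))
  change := by
    rintro j j' z hz z' hz' ⟨w, hw, hwz⟩ ψ ⟨hψ1, hψ2, hψ3⟩ v
    have h0 : S.σ j z = S.σ j' z' := by
      have := hψ3.self_of_nhds
      simpa [hψ2] using this
    have h1 := tr_contDiffAt S hz (hC hw) hwz.symm
    have h2 := tr_contDiffAt S hz' (hC hw) (h0.symm.trans hwz.symm)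
    have h3 : tr S j i =ᶠ[𝓝 z] fun x => tr S j' i (ψ x) := by
      filter_upwards [hψ3] with u hu
      unfold tr
      rw [← hu]
      rfl
    have h4 : fderiv ℝ (tr S j i) z = (fderiv ℝ (tr S j' i) z').comp (fderiv ℝ ψ z) := by
      rw [h3.fderiv_eq]
      have := fderiv_comp z (f := ψ) (g := tr S j' i)
        (by rw [hψ2]; exact h2.differentiableAt (by simp)) (hψ1.differentiableAt (by simp))
      rw [hψ2] at this
      exact this
    have h5 : tr S j i z = tr S j' i z' := by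
      rw [tr_eq S (hC hw) hwz.symm, tr_eq S (hC hw) (h0.symm.trans hwz.symm)]
    unfold pb
    rw [h4, h5]
    rfl

theorem pb_D1 {i : Fin S.N} {b : Cm d → L1 d} {C : Set (Cm d)} (hC : C ⊆ ball 0 3)
    (hb : ∀ w ∈ C, ContDiffAt ℝ ∞ b w) {α : Fin S.N → Cm d → L2 d} (hα : F2On S univ α)
    (hd : ∀ w ∈ C, ∀ u v, fderiv ℝ b w u v - fderiv ℝ b w v u = α i w u v) :
    IsD1 S (S.σ i '' C) (pb S i b) α := by
  rintro j z hz ⟨w, hw, hwz⟩ u v
  have h1 := tr_contDiffAt S hz (hC hw) hwz.symm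
  have h2 := tr_eq S (hC hw) hwz.symm
  have h3 := d_pull (b := b) (ψ := tr S j i) (z := z)
    (by rw [h2]; exact (hb w hw).differentiableAt (by simp)) h1 u v
  have h4 := hα.change j i z hz w (hC hw) (mem_univ _) (tr S j i)
    (tr_Tr S hz (hC hw) hwz.symm) u v
  have h5 : pb S i b j = fun x => (b (tr S j i x)).comp (fderiv ℝ (tr S j i) x) := rfl
  rw [h5, h3, h2, hd w hw, h4]

end

end Vale.Agent.P281.H702.TS
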