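import Vale.Agent.P281.H702.TS.HF

/-!
# P281, project T-S (helper702): integrals along segments which depend holomorphically on parameters
-/

open Set Filter Metric MeasureTheory Vale.Agent.P272.K
open scoped Topology ContDiff ComplexConjugate ComplexOrder

noncomputable section

namespace Vale.Agent.P281.H702.TS

open Vale.Agent.P281.H64.TK Vale.Agent.P281.H64.TK.TS

section
variable {E F : Type*} [NormedAddCommGroup E] [NormedSpace ℂ E] [FiniteDimensional ℂ E]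
  [NormedAddCommGroup F] [NormedSpace ℂ F] [CompleteSpace F]

omit [CompleteSpace F] in
/-- Holomorphic dependence of integrals on parameters. -/
theorem differentiableOn_segInt {G : E × ℂ → F} {U : Set E} {W : Set ℂ}
    (hU : IsOpen U) (hW : IsOpen W) (hsW : ∀ τ ∈ Icc (0 : ℝ) 1, (τ : ℂ) ∈ W)
    (hG : DifferentiableOn ℂ G (U ×ˢ W)) :
    DifferentiableOn ℂ (fun x => ∫ τ in (0 : ℝ)..1, G (x, (τ : ℂ))) U := by
  have : ProperSpace E := FiniteDimensional.proper ℂ E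
  intro x₀ hx₀
  apply DifferentiableAt.differentiableWithinAt
  have hUW : IsOpen (U ×ˢ W) := hU.prod hW
  obtain ⟨r, hr, hrU⟩ : ∃ r > 0, closedBall x₀ (2 * r) ⊆ U := by
    obtain ⟨r, hr, h⟩ := Metric.isOpen_iff.1 hU x₀ hx₀
    exact ⟨r / 4, by positivity, (closedBall_subset_ball (by linarith)).trans h⟩
  set K : Set ℂ := (fun τ : ℝ => (τ : ℂ)) '' Icc 0 1 with hK
  have hKc : IsCompact K := isCompact_Icc.image Complex.continuous_ofReal
  have hKW : K ⊆ W := by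
    rintro _ ⟨τ, hτ, rfl⟩
    exact hsW τ hτ
  have hcomp : IsCompact (closedBall x₀ (2 * r) ×ˢ K) := (isCompact_closedBall _ _).prod hKc
  have hsub : closedBall x₀ (2 * r) ×ˢ K ⊆ U ×ˢ W := prod_mono hrU hKW
  obtain ⟨C, hC⟩ := hcomp.exists_bound_of_continuousOn (hG.continuousOn.mono hsub)
  have hmem : ∀ τ ∈ uIoc (0 : ℝ) 1, (τ : ℂ) ∈ K := by
    intro τ hτ
    rw [uIoc_of_le zero_le_one] at hτ
    exact ⟨τ, ⟨hτ.1.le, hτ.2⟩, rfl⟩
  have hdG : ∀ x ∈ ball x₀ (2 * r), ∀ t ∈ K,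
      HasFDerivAt (fun x => G (x, t))
        ((fderiv ℂ G (x, t)).comp (ContinuousLinearMap.inl ℂ E ℂ)) x := by
    intro x hx t ht
    have h1 : DifferentiableAt ℂ G (x, t) :=
      hG.differentiableAt (hUW.mem_nhds ⟨hrU (ball_subset_closedBall hx), hKW ht⟩)
    have h2 : HasFDerivAt (fun x : E => (x, t)) (ContinuousLinearMap.inl ℂ E ℂ) x :=
      hasFDerivAt_prodMk_left x t
    exact h1.hasFDerivAt.comp x h2
  have hbound : ∀ x ∈ ball x₀ r, ∀ t ∈ K,
      ‖(fderiv ℂ G (x, t)).comp (ContinuousLinearMap.inl ℂ E ℂ)‖ ≤ C / r := by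
    intro x hx t ht
    have hxb : ball x r ⊆ ball x₀ (2 * r) := by
      intro y hy
      rw [mem_ball] at hx hy ⊢
      calc dist y x₀ ≤ dist y x + dist x x₀ := dist_triangle _ _ _
        _ < 2 * r := by linarith
    have hx2 : x ∈ ball x₀ (2 * r) := hxb (mem_ball_self hr)
    rw [← (hdG x hx2 t ht).fderiv]
    apply MF.norm_fderiv_le_of_ball hr
    · intro y hy
      exact (hdG y (hxb hy) t ht).differentiableAt.differentiableWithinAt
    · intro y hy
      exact hC (y, t) ⟨ball_subset_closedBall (hxb hy), ht⟩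
  have hcontD : ContinuousOn (fderiv ℂ G) (U ×ˢ W) :=
    MF.continuousOn_fderiv_of_differentiableOn hUW hG
  have key := hasFDerivAt_integral_of_dominated_of_fderiv_le
    (μ := MeasureTheory.volume.restrict (Set.uIoc (0 : ℝ) 1))
    (F := fun (x : E) (τ : ℝ) => G (x, (τ : ℂ)))
    (F' := fun (x : E) (τ : ℝ) =>
      (fderiv ℂ G (x, (τ : ℂ))).comp (ContinuousLinearMap.inl ℂ E ℂ))
    (x₀ := x₀) (s := ball x₀ r) (bound := fun _ => C / r) (𝕜 := ℂ)
    (ball_mem_nhds x₀ hr) ?_ ?_ ?_ ?_ ?_ ?_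
  · simp only [intervalIntegral.integral_of_le zero_le_one, Set.uIoc_of_le zero_le_one] at key ⊢
    exact key.differentiableAt
  · filter_upwards [ball_mem_nhds x₀ hr] with x hx
    apply ContinuousOn.aestronglyMeasurable _ measurableSet_uIoc
    refine hG.continuousOn.comp (by fun_prop) fun τ hτ => ?_
    exact ⟨hrU (ball_subset_closedBall (ball_subset_ball (by linarith) hx)), hKW (hmem τ hτ)⟩
  · have hci : ContinuousOn (fun τ : ℝ => G (x₀, (τ : ℂ))) (uIcc 0 1) := by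
      refine hG.continuousOn.comp (by fun_prop) fun τ hτ => ?_
      rw [uIcc_of_le zero_le_one] at hτ
      exact ⟨hx₀, hsW τ hτ⟩
    have := hci.intervalIntegrable (μ := volume)
    rw [intervalIntegrable_iff] at this
    exact this
  · apply ContinuousOn.aestronglyMeasurable _ measurableSet_uIoc
    have h1 : ContinuousOn (fun τ : ℝ => fderiv ℂ G (x₀, (τ : ℂ))) (Set.uIoc 0 1) := by
      refine hcontD.comp (by fun_prop) fun τ hτ => ?_
      exact ⟨hx₀, hKW (hmem τ hτ)⟩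
    exact h1.clm_comp continuousOn_const
  · refine (ae_restrict_iff' measurableSet_uIoc).2 (Eventually.of_forall fun τ hτ x hx => ?_)
    exact hbound x hx _ (hmem τ hτ)
  · rw [Set.uIoc_of_le zero_le_one]
    exact MeasureTheory.integrable_const _
  · refine (ae_restrict_iff' measurableSet_uIoc).2 (Eventually.of_forall fun τ hτ x hx => ?_)
    exact hdG x (ball_subset_ball (by linarith) hx) _ (hmem τ hτ)

/-- The local form. -/
theorem analyticAt_segInt {G : E × ℂ → F} {x₀ : E}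
    (h : ∀ τ ∈ Icc (0 : ℝ) 1, AnalyticAt ℂ G (x₀, (τ : ℂ))) :
    AnalyticAt ℂ (fun x => ∫ τ in (0 : ℝ)..1, G (x, (τ : ℂ))) x₀ := by
  have hKc : IsCompact ((fun τ : ℝ => (τ : ℂ)) '' Icc 0 1) :=
    isCompact_Icc.image Complex.continuous_ofReal
  obtain ⟨U, W, hU, hW, h1, h2, h3⟩ := generalized_tube_lemma (isCompact_singleton (x := x₀)) hKc
    (isOpen_analyticAt ℂ G) (by
      rintro ⟨x, t⟩ ⟨hx, τ, hτ, rfl⟩
      rw [mem_singleton_iff] at hx
      simp only at hx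
      subst hx
      exact h τ hτ)
  have h4 : DifferentiableOn ℂ G (U ×ˢ W) := fun q hq =>
    (h3 hq : AnalyticAt ℂ G q).differentiableAt.differentiableWithinAt
  exact MF.analyticAt_of_differentiableOn hU
    (differentiableOn_segInt hU hW (fun τ hτ => h2 ⟨τ, hτ, rfl⟩) h4) (h1 rfl)

end

section
variable {p d : ℕ}

/-- The integral of a holomorphic family of forms along a segment is holomorphic. -/
theorem seg_analytic {γ : Cm p × Cm d → (Cm d →L[ℂ] ℂ)} {t₀ : Cm p} {z₀ z₁ : Cm d}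
    (h : ∀ z ∈ segment ℝ z₀ z₁, AnalyticAt ℂ γ (t₀, z)) :
    AnalyticAt ℂ (fun t => ∫ τ in (0 : ℝ)..1,
      γ (t, z₀ + (τ : ℂ) • (z₁ - z₀)) (z₁ - z₀)) t₀ := by
  refine analyticAt_segInt (G := fun q : Cm p × ℂ => γ (q.1, z₀ + q.2 • (z₁ - z₀)) (z₁ - z₀))
    fun τ hτ => ?_
  have h1 : AnalyticAt ℂ (fun q : Cm p × ℂ => (q.1, z₀ + q.2 • (z₁ - z₀))) (t₀, (τ : ℂ)) := by
    refine AnalyticAt.prod analyticAt_fst ?_
    exact analyticAt_const.add (analyticAt_snd.smul analyticAt_const)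
  have h2 : AnalyticAt ℂ γ (t₀, z₀ + (τ : ℂ) • (z₁ - z₀)) := by
    refine h _ ?_
    rw [segment_eq_image']
    refine ⟨τ, hτ, ?_⟩
    simp only
    congr 1
  have h3 : AnalyticAt ℂ (fun q : Cm p × ℂ => γ (q.1, z₀ + q.2 • (z₁ - z₀))) (t₀, (τ : ℂ)) :=
    AnalyticAt.fun_comp (g := γ) h2 h1
  exact ((ContinuousLinearMap.apply ℂ ℂ (z₁ - z₀)).analyticAt _).fun_comp h3

/-- The integral of `dg` along a segment. -/
theorem seg_ftc {γ : Cm d → (Cm d →L[ℂ] ℂ)} {g : Cm d → ℂ} {z₀ z₁ : Cm d}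
    (hc : ∀ z ∈ segment ℝ z₀ z₁, ContinuousAt γ z)
    (hg : ∀ z ∈ segment ℝ z₀ z₁, HasFDerivAt g ((γ z).restrictScalars ℝ) z) :
    ∫ τ in (0 : ℝ)..1, γ (z₀ + (τ : ℂ) • (z₁ - z₀)) (z₁ - z₀) = g z₁ - g z₀ := by
  have hs : ∀ τ ∈ Icc (0 : ℝ) 1, z₀ + (τ : ℂ) • (z₁ - z₀) ∈ segment ℝ z₀ z₁ := by
    intro τ hτ
    rw [segment_eq_image']
    refine ⟨τ, hτ, ?_⟩
    simp only
    congr 1
  have hu : uIcc (0 : ℝ) 1 = Icc 0 1 := uIcc_of_le zero_le_one
  have h1 : ∀ τ ∈ uIcc (0 : ℝ) 1, HasDerivAt (fun τ : ℝ => g (z₀ + (τ : ℂ) • (z₁ - z₀)))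
      (γ (z₀ + (τ : ℂ) • (z₁ - z₀)) (z₁ - z₀)) τ := by
    intro τ hτ
    rw [hu] at hτ
    have h2 : HasDerivAt (fun τ : ℝ => z₀ + (τ : ℂ) • (z₁ - z₀)) (z₁ - z₀) τ := by
      have h3 : HasDerivAt (fun τ : ℝ => (τ : ℂ)) 1 τ := Complex.ofRealCLM.hasDerivAt
      simpa using (h3.smul_const (z₁ - z₀)).const_add z₀
    exact (hg _ (hs τ hτ)).comp_hasDerivAt τ h2
  have h4 : ContinuousOn (fun τ : ℝ => γ (z₀ + (τ : ℂ) • (z₁ - z₀)) (z₁ - z₀)) (uIcc 0 1) := by
    intro τ hτ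
    rw [hu] at hτ
    refine ContinuousAt.continuousWithinAt ?_
    have h5 : ContinuousAt (fun τ : ℝ => z₀ + (τ : ℂ) • (z₁ - z₀)) τ := by fun_prop
    have h6 : ContinuousAt (fun τ : ℝ => γ (z₀ + (τ : ℂ) • (z₁ - z₀))) τ :=
      ContinuousAt.comp (g := γ) (hc _ (hs τ hτ)) h5
    exact h6.clm_apply continuousAt_const
  rw [intervalIntegral.integral_eq_sub_of_hasDerivAt h1 h4.intervalIntegrable]
  simp

/-- A holomorphic family of holomorphic functions has a holomorphic family of primitives with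
respect to `z₀`. -/
theorem exists_prim_fam {T' : Set (Cm p)} {s : Cm p × Cm 2 → ℂ}
    (hs : ∀ t ∈ T', ∀ z ∈ ball (0 : Cm 2) 3, AnalyticAt ℂ s (t, z)) :
    ∃ b : Cm p × Cm 2 → ℂ, (∀ t ∈ T', ∀ z ∈ ball (0 : Cm 2) 3, AnalyticAt ℂ b (t, z)) ∧
      ∀ t ∈ T', ∀ z ∈ ball (0 : Cm 2) 3,
        fderiv ℂ (fun z => b (t, z)) z (Pi.single 0 1) = s (t, z) := by
  have hm : ∀ z ∈ ball (0 : Cm 2) 3, ∀ τ : ℂ, ‖τ‖ ≤ 1 → (![τ * z 0, z 1] : Cm 2) ∈
      ball (0 : Cm 2) 3 := by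
    intro z hz τ hτ
    rw [mem_ball_zero_iff, pi_norm_lt_iff (by norm_num)] at hz ⊢
    intro k
    fin_cases k
    · show ‖τ * z 0‖ < 3
      rw [norm_mul]
      exact (mul_le_of_le_one_left (norm_nonneg _) hτ).trans_lt (hz 0)
    · exact hz 1
  set b : Cm p × Cm 2 → ℂ := fun q => ∫ τ in (0 : ℝ)..1,
    q.2 0 * s (q.1, ![(τ : ℂ) * q.2 0, q.2 1]) with hb
  have ha : ∀ t ∈ T', ∀ z ∈ ball (0 : Cm 2) 3, AnalyticAt ℂ b (t, z) := by
    intro t ht z hz
    refine analyticAt_segInt (G := fun q : (Cm p × Cm 2) × ℂ =>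
      q.1.2 0 * s (q.1.1, ![q.2 * q.1.2 0, q.1.2 1])) fun τ hτ => ?_
    have h0 : AnalyticAt ℂ (fun q : (Cm p × Cm 2) × ℂ => q.1.2 0) ((t, z), (τ : ℂ)) :=
      (((ContinuousLinearMap.proj (R := ℂ) (φ := fun _ : Fin 2 => ℂ) 0).comp
        ((ContinuousLinearMap.snd ℂ (Cm p) (Cm 2)).comp
          (ContinuousLinearMap.fst ℂ (Cm p × Cm 2) ℂ))).analyticAt _)
    have h1 : AnalyticAt ℂ (fun q : (Cm p × Cm 2) × ℂ => q.1.2 1) ((t, z), (τ : ℂ)) :=
      (((ContinuousLinearMap.proj (R := ℂ) (φ := fun _ : Fin 2 => ℂ) 1).comp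
        ((ContinuousLinearMap.snd ℂ (Cm p) (Cm 2)).comp
          (ContinuousLinearMap.fst ℂ (Cm p × Cm 2) ℂ))).analyticAt _)
    have h2 : AnalyticAt ℂ (fun q : (Cm p × Cm 2) × ℂ => q.1.1) ((t, z), (τ : ℂ)) :=
      (((ContinuousLinearMap.fst ℂ (Cm p) (Cm 2)).comp
          (ContinuousLinearMap.fst ℂ (Cm p × Cm 2) ℂ)).analyticAt _)
    have h3 : AnalyticAt ℂ (fun q : (Cm p × Cm 2) × ℂ =>
        (![q.2 * q.1.2 0, q.1.2 1] : Cm 2)) ((t, z), (τ : ℂ)) := by
      rw [analyticAt_pi_iff]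
      intro k
      fin_cases k
      · exact analyticAt_snd.mul h0
      · exact h1
    have h4 : AnalyticAt ℂ s (t, ![(τ : ℂ) * z 0, z 1]) := by
      refine hs t ht _ (hm z hz _ ?_)
      rw [Complex.norm_real, Real.norm_of_nonneg hτ.1]
      exact hτ.2
    exact h0.mul (AnalyticAt.fun_comp (g := s) h4 (AnalyticAt.prod h2 h3))
  refine ⟨b, ha, fun t ht z hz => ?_⟩
  have hz' := hz
  rw [mem_ball_zero_iff, pi_norm_lt_iff (by norm_num)] at hz'
  set f : ℂ → ℂ := fun x => s (t, ![x, z 1]) with hf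
  have hmem : ∀ x ∈ ball (0 : ℂ) 3, (![x, z 1] : Cm 2) ∈ ball (0 : Cm 2) 3 := by
    intro x hx
    rw [mem_ball_zero_iff] at hx
    rw [mem_ball_zero_iff, pi_norm_lt_iff (by norm_num)]
    intro k
    fin_cases k
    · exact hx
    · exact hz' 1
  have hline : ∀ x : ℂ, HasDerivAt (fun x : ℂ => (![x, z 1] : Cm 2)) (Pi.single 0 1) x := by
    intro x
    rw [hasDerivAt_pi]
    intro k
    fin_cases k
    · simpa using hasDerivAt_id' x
    · simpa using hasDerivAt_const x (z 1)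
  have hfd : DifferentiableOn ℂ f (ball 0 3) := by
    intro x hx
    have h1 := (hs t ht _ (hmem x hx)).differentiableAt
    have h2 : DifferentiableAt ℂ (fun x : ℂ => (t, (![x, z 1] : Cm 2))) x :=
      (differentiableAt_const _).prodMk (hline x).differentiableAt
    exact (DifferentiableAt.comp (g := s) x h1 h2).differentiableWithinAt
  obtain ⟨P, hP⟩ := hfd.isExactOn_ball
  have hbP : ∀ x ∈ ball (0 : ℂ) 3, b (t, ![x, z 1]) = P x - P 0 := by
    intro x hx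
    have hsx : ∀ τ ∈ Icc (0 : ℝ) 1, (τ : ℂ) * x ∈ ball (0 : ℂ) 3 := by
      intro τ hτ
      rw [mem_ball_zero_iff] at hx ⊢
      rw [norm_mul, Complex.norm_real, Real.norm_of_nonneg hτ.1]
      exact (mul_le_of_le_one_left (norm_nonneg _) hτ.2).trans_lt hx
    have hu : uIcc (0 : ℝ) 1 = Icc 0 1 := uIcc_of_le zero_le_one
    have h1 : ∀ τ ∈ uIcc (0 : ℝ) 1, HasDerivAt (fun τ : ℝ => P ((τ : ℂ) * x))
        (x * f ((τ : ℂ) * x)) τ := by
      intro τ hτ
      rw [hu] at hτ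
      have h2 : HasDerivAt (fun τ : ℝ => (τ : ℂ) * x) x τ := by
        have h3 : HasDerivAt (fun τ : ℝ => (τ : ℂ)) 1 τ := Complex.ofRealCLM.hasDerivAt
        simpa using h3.mul_const x
      have h4 := (hP _ (hsx τ hτ)).comp_of_eq τ h2 rfl
      rw [mul_comm] at h4
      exact h4
    have h5 : ContinuousOn (fun τ : ℝ => x * f ((τ : ℂ) * x)) (uIcc 0 1) := by
      rw [hu]
      refine continuousOn_const.mul ?_
      exact hfd.continuousOn.comp (by fun_prop) fun τ hτ => hsx τ hτ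
    have h6 := intervalIntegral.integral_eq_sub_of_hasDerivAt h1 h5.intervalIntegrable
    simp only [Complex.ofReal_one, one_mul, Complex.ofReal_zero, zero_mul] at h6
    rw [← h6]
    rfl
  have hz0 : z 0 ∈ ball (0 : ℂ) 3 := by
    rw [mem_ball_zero_iff]
    exact hz' 0
  have hzz : (![z 0, z 1] : Cm 2) = z := by
    ext k
    fin_cases k <;> rfl
  have h1 : HasDerivAt (fun x : ℂ => b (t, ![x, z 1])) (f (z 0)) (z 0) := by
    refine ((hP (z 0) hz0).sub_const (P 0)).congr_of_eventuallyEq ?_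
    filter_upwards [isOpen_ball.mem_nhds hz0] with x hx
    exact hbP x hx
  have h2 : DifferentiableAt ℂ (fun z => b (t, z)) z := by
    have h3 := (ha t ht z hz).differentiableAt
    have h4 : DifferentiableAt ℂ (fun z : Cm 2 => (t, z)) z :=
      (differentiableAt_const _).prodMk differentiableAt_id
    exact DifferentiableAt.comp (g := b) z h3 h4
  have h3 : HasFDerivAt (fun z => b (t, z)) (fderiv ℂ (fun z => b (t, z)) z) (![z 0, z 1]) := by
    rw [hzz]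
    exact h2.hasFDerivAt
  have h4 := h3.comp_hasDerivAt (z 0) (hline (z 0))
  have h5 := h4.unique h1
  rw [h5, hf]
  simp only [hzz]

/-- The 1-form `b dz_1` (indices `0, 1`). -/
def cb (b : Cm p × Cm 2 → ℂ) (t : Cm p) (z : Cm 2) : L1 2 :=
  b (t, z) • (ContinuousLinearMap.proj (R := ℝ) (φ := fun _ : Fin 2 => ℂ) 1)

theorem cb_apply (b : Cm p × Cm 2 → ℂ) (t : Cm p) (z v : Cm 2) : cb b t z v = b (t, z) * v 1 :=
  rfl

theorem cb_smooth {b : Cm p × Cm 2 → ℂ} {t : Cm p} {z : Cm 2} (hb : AnalyticAt ℂ b (t, z)) :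
    ContDiffAt ℝ ∞ (cb b t) z := by
  have h1 : AnalyticAt ℂ (fun z : Cm 2 => b (t, z)) z :=
    AnalyticAt.fun_comp (g := b) hb (AnalyticAt.prod analyticAt_const analyticAt_id)
  exact ((h1.contDiffAt (n := ∞)).restrict_scalars ℝ).smul contDiffAt_const

theorem cb_d {b : Cm p × Cm 2 → ℂ} {t : Cm p} {z : Cm 2} (hb : AnalyticAt ℂ b (t, z)) {c : ℂ}
    (hc : fderiv ℂ (fun z => b (t, z)) z (Pi.single 0 1) = c) (u v : Cm 2) :
    fderiv ℝ (cb b t) z u v - fderiv ℝ (cb b t) z v u = sf2 c u v := by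
  have h1 : AnalyticAt ℂ (fun z : Cm 2 => b (t, z)) z :=
    AnalyticAt.fun_comp (g := b) hb (AnalyticAt.prod analyticAt_const analyticAt_id)
  have h2 : HasFDerivAt (fun z : Cm 2 => b (t, z))
      ((fderiv ℂ (fun z => b (t, z)) z).restrictScalars ℝ) z :=
    h1.differentiableAt.hasFDerivAt.restrictScalars ℝ
  have h3 : ∀ a c : Cm 2, fderiv ℝ (cb b t) z a c = fderiv ℂ (fun z => b (t, z)) z a * c 1 := by
    intro a c
    have h4 : HasFDerivAt (fun z : Cm 2 => cb b t z c) _ z := h2.mul_const (c 1)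
    have h5 := ((cb_smooth hb).differentiableAt (by simp)).hasFDerivAt.clm_apply
      (hasFDerivAt_const c z)
    have h6 := h5.unique h4
    have h7 := congrArg (fun L : Cm 2 →L[ℝ] ℂ => L a) h6
    simp only [add_apply, ContinuousLinearMap.comp_apply, ContinuousLinearMap.flip_apply,
      zero_apply, map_zero, zero_add, smul_apply, smul_eq_mul,
      ContinuousLinearMap.coe_restrictScalars'] at h7
    rw [h7]
    ring
  have h5 : ∀ a : Cm 2, fderiv ℂ (fun z => b (t, z)) z a =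
      a 0 * c + a 1 * fderiv ℂ (fun z => b (t, z)) z (Pi.single 1 1) := by
    intro a
    have h6 : a = a 0 • (Pi.single 0 (1 : ℂ) : Cm 2) + a 1 • (Pi.single 1 (1 : ℂ) : Cm 2) := by
      ext m
      fin_cases m <;> simp
    conv_lhs => rw [h6]
    rw [map_add, map_smul, map_smul, smul_eq_mul, smul_eq_mul, hc]
  rw [h3, h3, h5 u, h5 v, sf2_apply]
  ring

end

end Vale.Agent.P281.H702.TS
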